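import Vale.Agent.P235.K5.Glue
import Vale.Agent.P235.K5.H500.Bag
import Vale.Agent.P235.Comp.Defs

set_option linter.all false

/-!
# Sums over cliques with at most 3 vertices of planar graphs AND graphs of bounded treewidth

Literals (helper578).  `d` is kept on the adhesions (no contraction); what the births do not see
is exactly the far pairs of the large torsos, and these are captured by the A half.
-/

namespace Vale.Agent.P235.K5.Mix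

open Finset Vale.Agent.P235 Vale.Agent.P235.K5

section

variable {n T k : ℕ} (Z : Tor n T k) (d : Fin n → Fin n → ℝ)

/-- a pair of the torso `t` which is far from the adhesion of `t` -/
def Far (t : Fin T) (a c : Fin n) : Prop :=
  ∀ s ∈ Z.S t, d a c / 5 ≤ d a s ∧ d a c / 5 ≤ d c s

/-- the pair `p, q` of the torso `t` is near a far pair of an ancestor of `t` -/
def Exc (ε : ℝ) (t : Fin T) (p q : Fin n) : Prop :=
  ∃ τ, Z.tree.Desc τ t ∧ ∃ a ∈ Z.H τ, ∃ c ∈ Z.H τ, a ≠ c ∧ Far Z d τ a c ∧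
    d p a + d q c ≤ ε * d p q

end

/-- [MON2] the slots for the metric `d` itself -/
def Mon2Stmt : Prop :=
  ∀ (k : ℕ) (ε : ℝ), 0 < ε → ∃ (L : ℕ) (κ : ℝ), 0 < κ ∧
    ∀ (n T : ℕ) (Z : Tor n T k) (d : Fin n → Fin n → ℝ), Z.Sep d →
      ∃ η : Fin T → Fin L → Fin n → ℝ,
        (∀ t j p q, |η t j p - η t j q| ≤ d p q) ∧
        (∀ t, Z.up t ≠ t → ∀ j, η t j = η (Z.up t) j ∨ ∀ a ∈ Z.S t, η t j a = 0) ∧
        ∀ t, ∀ z ∈ Z.H t, ∀ a ∈ Z.S t,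
          (∃ j, κ * d z a ≤ |η t j z - η t j a|) ∨ Exc Z d ε t z a

/-- [NLAW2] the cut metric of the slots -/
def NLaw2Stmt : Prop :=
  ∀ (k : ℕ) (ε : ℝ), 0 < ε → ∃ κ : ℝ, 0 < κ ∧
    ∀ (n T : ℕ) (Z : Tor n T k) (d : Fin n → Fin n → ℝ), Z.Sep d →
      ∃ F : Fin n → Fin n → ℝ, IsL1 F ∧ (∀ t, ∀ p ∈ Z.H t, ∀ q ∈ Z.H t, F p q ≤ d p q) ∧
        ∀ t, ∀ z ∈ Z.H t, ∀ a ∈ Z.S t, κ * d z a ≤ F z a ∨ Exc Z d ε t z a

/-- a metric on `V` captures the far pairs of the set `B` with root set `S` -/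
def Cap {V : Type} (d F : V → V → ℝ) (B S : Set V) (c : ℝ) : Prop :=
  ∀ x ∈ B, ∀ y ∈ B, ∀ r : ℝ, r ≤ d x y → (∀ s ∈ S, r ≤ d x s) → (∀ s ∈ S, r ≤ d y s) →
    c * r ≤ F x y

/-- [A-LOW] gluing along at most three vertices (copy of `Glued.exists_A`; `Q t F` is any property
of the restriction of `F` to the bag `t`) -/
def ALowStmt : Prop :=
  ∀ (V : Type) [Finite V] (H : SimpleGraph V) (n : ℕ) (B : ℕ → Set V), Glued 3 H n B →
    ∀ d : V → V → ℝ, IsMet d → Gen H d → ∀ Q : ℕ → (V → V → ℝ) → Prop,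
      (∀ t F F', (∀ x ∈ B t, ∀ y ∈ B t, F x y = F' x y) → Q t F → Q t F') →
      (∀ t < n, ∀ ρ : V → V → ℝ, IsL1 ρ → (∀ x ∈ Adh B t, ∀ y ∈ Adh B t, ρ x y ≤ d x y) →
        ∃ F : V → V → ℝ, IsL1 F ∧ (∀ x ∈ Adh B t, ∀ y ∈ Adh B t, F x y = ρ x y) ∧
          (∀ x ∈ B t, ∀ y ∈ B t, F x y ≤ d x y) ∧ Q t F) →
      ∃ F : V → V → ℝ, IsL1 F ∧ (∀ x y, F x y ≤ d x y) ∧ ∀ t < n, Q t F

/-- [WEAK] any metric `ρ ≤ d` on the root clique extends and the far pairs are captured -/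
def WeakStmt : Prop :=
  ∀ c : ℝ, 0 < c → c ≤ 1 → ∃ c' : ℝ, 0 < c' ∧ ∀ (V : Type) [Finite V] (G : SimpleGraph V)
    (S : Set V), H500.PC c V G S → S.ncard ≤ 3 → (∀ u ∈ S, ∀ v ∈ S, u ≠ v → G.Adj u v) →
    ∀ d : V → V → ℝ, IsMet d → Gen G d →
    ∀ ρ : V → V → ℝ, IsL1 ρ → (∀ x ∈ S, ∀ y ∈ S, ρ x y ≤ d x y) →
      ∃ F : V → V → ℝ, IsL1 F ∧ (∀ x ∈ S, ∀ y ∈ S, F x y = ρ x y) ∧ (∀ x y, F x y ≤ d x y) ∧
        Cap d F Set.univ S c'

/-- [MC] McShane into the plane with the maximum norm -/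
def McStmt : Prop :=
  ∀ (V : Type) [Finite V] (d : V → V → ℝ), IsMet d → ∀ S : Set V, S.ncard ≤ 3 →
    ∀ ρ : V → V → ℝ, IsL1 ρ → (∀ x ∈ S, ∀ y ∈ S, ρ x y ≤ d x y) →
      ∃ F : V → V → ℝ, IsL1 F ∧ (∀ x ∈ S, ∀ y ∈ S, F x y = ρ x y) ∧ ∀ x y, F x y ≤ d x y

/-- at most one new vertex -/
def One {V : Type} (B : ℕ → Set V) (t : ℕ) : Prop :=
  ∀ u ∈ B t, u ∉ Adh B t → ∀ v ∈ B t, v ∉ Adh B t → u = v

/-- [MIX-END] the fine form: bags with one new vertex, and bags whose far pairs are captured -/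
def MixEndStmt : Prop :=
  ∀ (k : ℕ), 1 ≤ k → ∀ cA : ℝ, 0 < cA → ∃ c : ℝ, 0 < c ∧ c ≤ 1 ∧ ∀ (V : Type) [Finite V]
    (H : SimpleGraph V) (n : ℕ) (B : ℕ → Set V), Glued k H n B →
    (∀ t < n, ∃ v ∈ B t, v ∉ Bef B t) → ∀ d : V → V → ℝ, IsMet d → Gen H d →
    ∀ FA : V → V → ℝ, IsL1 FA → (∀ x y, FA x y ≤ d x y) →
      (∀ t < n, One B t ∨ Cap d FA (B t) (Adh B t) cA) →
      ∃ F : V → V → ℝ, IsL1 F ∧ ∀ x y, c * d x y ≤ F x y ∧ F x y ≤ d x y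

/-- the pieces: connected edge-exact with a planar cap at a triangle, or of treewidth at most `w` -/
def MP (c : ℝ) (w : ℕ) (V : Type) (G : SimpleGraph V) (S : Set V) : Prop :=
  H500.PC c V G S ∨ TreewidthLE G w

/-- [FINE] from the sum to the fine sequence of bags: the pieces of treewidth at most `w` are
eliminated vertex by vertex (the root clique is added to all their bags) -/
def FineStmt : Prop :=
  ∀ (c : ℝ) (w : ℕ) (V : Type) [Finite V] (H : SimpleGraph V) (n : ℕ) (B : ℕ → Set V),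
    Glued 3 H n B → (∀ t < n, MP c w (B t) (H.induce (B t)) {x | (x : V) ∈ Adh B t}) →
    ∃ (H' : SimpleGraph V) (n' : ℕ) (B' : ℕ → Set V), H ≤ H' ∧ Glued (w + 4) H' n' B' ∧
      (∀ t < n', ∃ v ∈ B' t, v ∉ Bef B' t) ∧
      ∀ t' < n', One B' t' ∨ ∃ t < n, B' t' = B t ∧ Adh B' t' = Adh B t ∧
        H500.PC c (B t) (H.induce (B t)) {x | (x : V) ∈ Adh B t}

/-- **[MIX]** -/
def MixStmt : Prop :=
  ∀ c : ℝ, 0 < c → c ≤ 1 → ∀ w : ℕ, ∃ K : ℝ, ∀ (V : Type) [Finite V] (G H : SimpleGraph V),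
    G ≤ H → G.Connected → CliqueSum 3 (MP c w) H → DistortionLE G K

end Vale.Agent.P235.K5.Mix
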